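import Vale.Agent.P166.Phase.FreeID.Branch

/-!
The second-moment criterion holds for free infinitely divisible laws.
-/

open MeasureTheory Filter
open scoped Topology ENNReal

noncomputable section

namespace Vale.Agent.P166.Phase.FreeID

open Pattern.Signed (Carried)
open Pattern.Multi (Rk dom cauchy)

variable {μ ρ : Measure ℝ} [IsProbabilityMeasure μ] {γ A : ℝ}

/-- scaled monotonicity of `y² R'(y)` -/
lemma Rd_mono (h : Carried ρ A) {G β : ℝ} (hG : G ∈ dom ρ) (hβ : β ∈ dom ρ) (hle : G ≤ β)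
    (hneg : ∀ᵐ x ∂ρ, -1 ≤ β * x) :
    G ^ 2 * Rd ρ G * (G + β) ^ 2 ≤ 4 * G ^ 2 * (β ^ 2 * Rd ρ β) := by
  have h1 := (integrable_pow_den h hG).2.1
  have h2 := (integrable_pow_den h hβ).2.1
  have key : ∫ x, (G + β) ^ 2 * (1 / (1 - x * G) ^ 2) ∂ρ ≤ ∫ x, 4 * β ^ 2 * (1 / (1 - x * β) ^ 2) ∂ρ := by
    refine integral_mono_ae (h1.const_mul _) (h2.const_mul _) ?_
    filter_upwards [h.den_pos hG, h.den_pos hβ, hneg] with x hx hy hn
    have a : 0 < 1 - x * G := (sub_pos.2 hG.2).trans_le hx.2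
    have b : 0 < 1 - x * β := (sub_pos.2 hβ.2).trans_le hy.2
    have hk : (G + β) * (1 - x * β) ≤ 2 * β * (1 - x * G) := by
      nlinarith [mul_nonneg (sub_nonneg.2 hle) (show 0 ≤ 1 + β * x by linarith)]
    show (G + β) ^ 2 * (1 / (1 - x * G) ^ 2) ≤ 4 * β ^ 2 * (1 / (1 - x * β) ^ 2)
    rw [mul_one_div, mul_one_div, div_le_div_iff₀ (by positivity) (by positivity)]
    have := pow_le_pow_left₀ (mul_nonneg (by linarith [hG.1, hβ.1]) b.le) hk 2
    linarith
  rw [integral_const_mul, integral_const_mul] at key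
  have := mul_le_mul_of_nonneg_left key (sq_nonneg G)
  simp only [Rd] at this ⊢
  linarith

/-- the criterion below the edge -/
theorem crit (h : Carried ρ A) (hμ : IsCompact μ.support)
    (heq : ∀ᶠ w in atTop, w = 1 / cauchy μ w + Rk γ ρ (cauchy μ w)) {β : ℝ} (hβ : 0 < β)
    (hG : ENNReal.ofReal β < edgeG μ) (hneg : ∀ᵐ x ∂ρ, -1 ≤ β * x) : Crit μ β := by
  intro z hz hzβ
  obtain ⟨z0, hz0, hv⟩ := exists_crit hμ hβ hG
  obtain ⟨hG0, hM⟩ := stiel_pos hμ hz
  have hdom := (branch h hμ heq hz).1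
  have hdomβ := (branch h hμ heq hz0).1
  rw [hv] at hdomβ
  have hm := Rd_mono h hdom hdomβ hzβ.le hneg
  have e := stielSq_eq h hμ heq hz
  have e0 := stielSq_eq h hμ heq hz0
  rw [hv] at e0
  set G := stiel μ z
  set M := stielSq μ z
  set k := G ^ 2 * Rd ρ G
  set k0 := β ^ 2 * Rd ρ β
  have hk0 : k0 < 1 := by
    by_contra hc
    nlinarith [(stiel_pos hμ hz0).2, sq_pos_of_pos hβ, not_lt.1 hc]
  have hk : k * (G + β) ^ 2 < 4 * G ^ 2 := by
    have := mul_lt_mul_of_pos_left hk0 (show 0 < 4 * G ^ 2 by positivity)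
    linarith
  have hk1 : (β - G) * (β + 3 * G) < (1 - k) * (G + β) ^ 2 := by linarith
  have hgap : 0 < β - G := by linarith
  have hpoly : 4 * (β - G) * (G + β) ^ 2 ≤ (2 * β - G) ^ 2 * (β + 3 * G) := by
    nlinarith [mul_nonneg hG0.le (add_nonneg (sq_nonneg (2 * β - (7 / 4) * G)) (sq_nonneg G))]
  have hA := mul_le_mul_of_nonneg_left hpoly hgap.le
  have hB := mul_lt_mul_of_pos_left hk1 (show 0 < (2 * β - G) ^ 2 by
    have : 0 < 2 * β - G := by linarith
    positivity)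
  have h1 : 4 * (β - G) ^ 2 < (2 * β - G) ^ 2 * (1 - k) := by
    refine lt_of_mul_lt_mul_right (a := (G + β) ^ 2) ?_ (sq_nonneg _)
    linarith
  have h2 := mul_lt_mul_of_pos_left h1 hM
  have h3 : M * (1 - k) = G ^ 2 := e
  calc 4 * (β - G) ^ 2 * M = M * (4 * (β - G) ^ 2) := by ring
    _ < M * ((2 * β - G) ^ 2 * (1 - k)) := h2
    _ = G ^ 2 * (2 * β - G) ^ 2 := by rw [← h3]; ring

/-- the criterion at the edge -/
theorem crit_edge (h : Carried ρ A) (hμ : IsCompact μ.support)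
    (heq : ∀ᶠ w in atTop, w = 1 / cauchy μ w + Rk γ ρ (cauchy μ w)) {g : ℝ}
    (hG : edgeG μ = ENNReal.ofReal g) (hneg : ∀ᵐ x ∂ρ, -1 ≤ g * x) :
    ∀ z, top μ < z → stiel μ z < g →
      4 * (g - stiel μ z) ^ 2 * stielSq μ z ≤ stiel μ z ^ 2 * (2 * g - stiel μ z) ^ 2 := by
  intro z hz hzg
  obtain ⟨hG0, -⟩ := stiel_pos hμ hz
  set G := stiel μ z
  have hg : 0 < g := hG0.trans hzg
  have hev : ∀ᶠ b in 𝓝[<] g, 4 * (b - G) ^ 2 * stielSq μ z ≤ G ^ 2 * (2 * b - G) ^ 2 := by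
    filter_upwards [Ioo_mem_nhdsLT hzg] with b hb
    have hb0 : 0 < b := hG0.trans hb.1
    refine (crit h hμ heq hb0 (hG ▸ (ENNReal.ofReal_lt_ofReal_iff hg).2 hb.2) ?_ z hz hb.1).le
    filter_upwards [hneg] with x hx
    rcases le_total 0 x with hx0 | hx0
    · nlinarith
    · nlinarith [mul_le_mul_of_nonpos_right hb.2.le hx0]
  exact le_of_tendsto_of_tendsto ((by fun_prop : Continuous fun b : ℝ => 4 * (b - G) ^ 2 * stielSq μ z).continuousWithinAt)
    ((by fun_prop : Continuous fun b : ℝ => G ^ 2 * (2 * b - G) ^ 2).continuousWithinAt) hev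

end Vale.Agent.P166.Phase.FreeID
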