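import Vale.Agent.P166.Phase.FreeID.Main

/-!
Two-sided bounds at all temperatures from the formula below the edge.
-/

open MeasureTheory Filter Real
open scoped Topology ENNReal

noncomputable section

namespace Vale.Agent.P166.Phase.FreeID

open Pattern.Signed (Carried)
open Pattern.Multi (Rk dom cauchy)

variable {μ ρ : Measure ℝ} [IsProbabilityMeasure μ] {γ A : ℝ} {lam : ∀ N : ℕ, Fin N → ℝ}
  {ν : ∀ N : ℕ, Measure (Mat N)}

lemma energy_smul {N : ℕ} (c β : ℝ) (v : Fin N → ℝ) (U : Mat N) (σ : Fin N → Bool) :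
    energy (c * β) v U σ = c * energy β v U σ := by
  simp only [energy]; ring

/-- pathwise: the pressure grows at most linearly after any temperature -/
lemma pressure_power {N : ℕ} (hN : 0 < N) {β0 β : ℝ} (h0 : 0 < β0) (hle : β0 ≤ β) (v : Fin N → ℝ) (U : Mat N) :
    pressure β v U ≤ β / β0 * (pressure β0 v U + log 2) - log 2 := by
  set c := β / β0
  have hc : 1 ≤ c := (one_le_div h0).2 hle
  set S : ℝ → ℝ := fun b => ∑ σ : Fin N → Bool, exp (energy b v U σ)
  have hS : ∀ b, 0 < S b := fun b => sum_pos' _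
  have key : S β ≤ exp (c * log (S β0)) := by
    refine le_trans ?_ (le_of_eq (mul_one _))
    rw [← div_le_iff₀' (exp_pos _), Finset.sum_div]
    refine (Finset.sum_le_sum (g := fun σ => exp (energy β0 v U σ) / S β0) fun σ _ => ?_).trans
      (by rw [← Finset.sum_div, div_self (hS β0).ne'])
    rw [show β = c * β0 by simp only [c]; field_simp, energy_smul, ← exp_sub, ← mul_sub]
    conv_rhs => rw [show S β0 = exp (log (S β0)) from (exp_log (hS β0)).symm, ← exp_sub]
    refine exp_le_exp.2 ?_
    have h1 : energy β0 v U σ ≤ log (S β0) := by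
      rw [le_log_iff_exp_le (hS β0)]
      exact Finset.single_le_sum (f := fun σ => exp (energy β0 v U σ)) (fun _ _ => (exp_pos _).le) (Finset.mem_univ σ)
    nlinarith
  have h := log_le_log (hS β) key
  rw [log_exp] at h
  have hN' : (0:ℝ) < N := by exact_mod_cast hN
  have e : ∀ b, pressure b v U = log (S b) / N - log 2 := fun b => by
    rw [pressure_eq, log_mul (by positivity) (hS b).ne', log_inv, log_pow]
    field_simp; ring
  rw [e, e, sub_add_cancel, sub_le_sub_iff_right, mul_div_assoc']
  exact div_le_div_of_nonneg_right h hN'.le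

/-- pathwise convexity in the inverse temperature -/
lemma pressure_convex {N : ℕ} (hN : 0 < N) {a g β : ℝ} (hag : a < g) (hgb : g < β) (v : Fin N → ℝ) (U : Mat N) :
    pressure g v U + (β - g) * (pressure g v U - pressure a v U) / (g - a) ≤ pressure β v U := by
  set θ := (β - g) / (β - a)
  have h1 : 0 ≤ θ := div_nonneg (by linarith) (by linarith)
  have h2 : 0 ≤ 1 - θ := by rw [sub_nonneg, div_le_one (by linarith)]; linarith
  have hg : g = θ * a + (1 - θ) * β := by
    have : β - a ≠ 0 := by linarith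
    simp only [θ]; field_simp; ring
  set S : ℝ → ℝ := fun b => ∑ σ : Fin N → Bool, exp (energy b v U σ)
  have hS : ∀ b, 0 < S b := fun b => sum_pos' _
  have key : S g ≤ exp (θ * log (S a) + (1 - θ) * log (S β)) := by
    refine le_trans ?_ (le_of_eq (mul_one _))
    rw [← div_le_iff₀' (exp_pos _), Finset.sum_div]
    refine (Finset.sum_le_sum (g := fun σ => θ * (exp (energy a v U σ) / S a) +
      (1 - θ) * (exp (energy β v U σ) / S β)) fun σ _ => ?_).trans (le_of_eq ?_)
    · have he : energy g v U σ = θ * energy a v U σ + (1 - θ) * energy β v U σ := by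
        simp only [energy, hg]; ring
      have hj := convexOn_exp.2 (Set.mem_univ (energy a v U σ - log (S a)))
        (Set.mem_univ (energy β v U σ - log (S β))) h1 h2 (by ring)
      simp only [smul_eq_mul, exp_sub, exp_log (hS a), exp_log (hS β)] at hj
      refine le_trans (le_of_eq ?_) hj
      rw [← exp_sub, he]; congr 1; ring
    · simp only [Finset.sum_add_distrib, ← Finset.mul_sum, ← Finset.sum_div]
      rw [div_self (hS a).ne', div_self (hS β).ne']; ring
  have h := log_le_log (hS g) key
  rw [log_exp] at h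
  have hN' : (0:ℝ) < N := by exact_mod_cast hN
  have e : ∀ b, pressure b v U = log (S b) / N - log 2 := fun b => by
    rw [pressure_eq, log_mul (by positivity) (hS b).ne', log_inv, log_pow]
    field_simp; ring
  rw [← le_sub_iff_add_le', div_le_iff₀ (sub_pos.2 hag)]
  have hh := mul_le_mul_of_nonneg_left h (show 0 ≤ (β - a) / N from div_nonneg (by linarith) hN'.le)
  have t1 : (β - a) * θ = β - g := mul_div_cancel₀ _ (by linarith)
  have t2 : (β - a) * (1 - θ) = g - a := by rw [mul_sub, t1]; ring
  rw [show (β - a) / N * (θ * log (S a) + (1 - θ) * log (S β)) =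
    ((β - a) * θ) * (log (S a) / N) + ((β - a) * (1 - θ)) * (log (S β) / N) by ring, t1, t2,
    show (β - a) / N * log (S g) = (β - a) * (log (S g) / N) by ring] at hh
  rw [e, e, e]
  linarith

/-- upper bound at every higher temperature parameter, for every sign of the jumps -/
theorem upper_bound (h : Carried ρ A) (hμ : IsCompact μ.support)
    (heq : ∀ᶠ w in atTop, w = 1 / cauchy μ w + Rk γ ρ (cauchy μ w)) (hl : Admissible μ lam)
    (hν : ∀ N, IsHaarOrthogonal (ν N)) {β0 β : ℝ} (h0 : 0 < β0) (hle : β0 ≤ β)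
    (hG : ENNReal.ofReal β0 < edgeG μ) {ε : ℝ} (hε : 0 < ε) :
    Tendsto (fun N : ℕ => (ν N).real
      {U | β / β0 * ((∫ s in (0:ℝ)..β0, Rk γ ρ s) / 2 + log 2) - log 2 + ε ≤ pressure β (lam N) U}) atTop (𝓝 0) := by
  have hβ : 0 < β := h0.trans_le hle
  have hu := upper_prob hμ hl hν h0 (show 0 < β0 / β * ε by positivity)
  refine squeeze_zero' (.of_forall fun N => measureReal_nonneg) ?_ hu
  filter_upwards [eventually_gt_atTop 0] with N hN
  have := (hν N).1
  refine measureReal_mono fun U (hU : _ ≤ pressure β (lam N) U) => ?_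
  show annealed μ β0 + β0 / β * ε ≤ pressure β0 (lam N) U
  rw [annealed_formula h hμ heq h0 hG]
  have hp := pressure_power hN h0 hle (lam N) U
  refine le_of_mul_le_mul_left (a := β / β0) ?_ (by positivity)
  have e : β / β0 * (β0 / β * ε) = ε := by field_simp
  linarith

/-- lower bound beyond the edge by convexity -/
theorem lower_bound (h : Carried ρ A) (hμ : IsCompact μ.support)
    (heq : ∀ᶠ w in atTop, w = 1 / cauchy μ w + Rk γ ρ (cauchy μ w)) (hl : Admissible μ lam)
    (hν : ∀ N, IsHaarOrthogonal (ν N)) {g : ℝ} (hG : edgeG μ = ENNReal.ofReal g)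
    (hneg : ∀ᵐ x ∂ρ, -1 ≤ g * x) {a β : ℝ} (ha : 0 < a) (hag : a < g) (hgb : g < β) {ε : ℝ} (hε : 0 < ε) :
    Tendsto (fun N : ℕ => (ν N).real {U | pressure β (lam N) U ≤ (∫ s in (0:ℝ)..g, Rk γ ρ s) / 2 +
      (β - g) * ((∫ s in a..g, Rk γ ρ s) / 2) / (g - a) - ε}) atTop (𝓝 0) := by
  have hg : 0 < g := ha.trans hag
  set Ig := (∫ s in (0:ℝ)..g, Rk γ ρ s) / 2
  set Ia := (∫ s in (0:ℝ)..a, Rk γ ρ s) / 2
  have hsub : (∫ s in a..g, Rk γ ρ s) / 2 = Ig - Ia := by
    have hi := integrable_edge h hμ heq hG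
    have hia : IntervalIntegrable (Rk γ ρ) volume 0 a := hi.mono_set (by
      rw [Set.uIcc_of_le ha.le, Set.uIcc_of_le hg.le]; exact Set.Icc_subset_Icc le_rfl hag.le)
    rw [← intervalIntegral.integral_interval_sub_left hi hia]; simp only [Ig, Ia]; ring
  rw [hsub]
  set C := 1 + 2 * (β - g) / (g - a)
  have hC : 0 < C := add_pos_of_pos_of_nonneg one_pos (div_nonneg (by linarith) (by linarith))
  have hδ : 0 < ε / (2 * C) := by positivity
  have h1 := (phase_edge h hμ heq hl hν hG hneg hg).1 le_rfl _ hδ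
  have h2 := (phase_edge h hμ heq hl hν hG hneg ha).1 hag.le _ hδ
  have hsum := h1.add h2
  rw [add_zero] at hsum
  refine squeeze_zero' (.of_forall fun N => measureReal_nonneg) ?_ hsum
  filter_upwards [eventually_gt_atTop 0] with N hN
  have := (hν N).1
  refine (measureReal_mono fun U (hU : pressure β (lam N) U ≤ _) => ?_).trans (measureReal_union_le _ _)
  by_contra hc
  rw [Set.mem_union, not_or] at hc
  simp only [Set.mem_ofPred_eq, not_le] at hc
  change |_ - Ig| < _ ∧ |_ - Ia| < _ at hc
  obtain ⟨a1, a2⟩ := abs_lt.1 hc.1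
  obtain ⟨b1, b2⟩ := abs_lt.1 hc.2
  have hp := pressure_convex hN hag hgb (lam N) U
  have hk : 0 ≤ (β - g) / (g - a) := div_nonneg (by linarith) (by linarith)
  have m1 := mul_le_mul_of_nonneg_left (show Ig - Ia - 2 * (ε / (2 * C)) ≤
    pressure g (lam N) U - pressure a (lam N) U by linarith) hk
  have e1 : ε / (2 * C) * C = ε / 2 := by field_simp
  have e2 : ε / (2 * C) * C = ε / (2 * C) + (β - g) / (g - a) * (2 * (ε / (2 * C))) := by
    simp only [C]; ring
  rw [mul_div_right_comm] at hp hU
  linarith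

end Vale.Agent.P166.Phase.FreeID
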