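import Vale.Agent.P166.Phase.Rate
import Vale.Agent.P166.Pattern.Signed.Kernel

/-!
The transform of a free infinitely divisible law to the right of its support.
-/

open MeasureTheory Filter
open scoped Topology ENNReal

noncomputable section

namespace Vale.Agent.P166.Phase.FreeID

open Pattern.Signed (Carried analytic_Rk inner_series no_continuation)
open Pattern.Multi (Rk dom cauchy Law gco cauchy_series cauchy_anti cauchy_pos cauchy_deriv Rk_eq)

variable {μ ρ : Measure ℝ} [IsProbabilityMeasure μ] {γ A : ℝ}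

lemma cauchy_eq (μ : Measure ℝ) (z : ℝ) : cauchy μ z = stiel μ z := by
  simp [cauchy, stiel, one_div]

lemma law_top (hμ : IsCompact μ.support) : Law μ (-bnd μ) (top μ) :=
  ⟨inferInstance, (ae_mem hμ).mono fun _ hx => ⟨(abs_le.1 hx.2).1, hx.1⟩⟩

lemma stiel_tendsto_zero (hμ : IsCompact μ.support) : Tendsto (stiel μ) atTop (𝓝 0) :=
  squeeze_zero' ((eventually_gt_atTop (top μ)).mono fun _ hz => (stiel_pos hμ hz).1.le)
    ((eventually_gt_atTop (top μ)).mono fun _ hz => stiel_le hμ hz)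
    (tendsto_inv_atTop_zero.comp (tendsto_atTop_add_const_right atTop _ tendsto_id))

/-- the kernel equation holds on the whole half line to the right of the support -/
theorem branch (h : Carried ρ A) (hμ : IsCompact μ.support)
    (heq : ∀ᶠ w in atTop, w = 1 / cauchy μ w + Rk γ ρ (cauchy μ w)) {z : ℝ} (hz : top μ < z) :
    stiel μ z ∈ dom ρ ∧ z = 1 / stiel μ z + Rk γ ρ (stiel μ z) := by
  have hL := law_top hμ
  set G := cauchy μ
  set A0 := sSup ρ.support
  set J := {w | top μ < w ∧ G w * A0 < 1}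
  have hJconn : IsPreconnected J := by
    refine Set.OrdConnected.isPreconnected ⟨fun u hu v _ w hw => ⟨hu.1.trans_le hw.1, ?_⟩⟩
    rcases le_total 0 A0 with hA0 | hA0
    · exact (mul_le_mul_of_nonneg_right (cauchy_anti hL hu.1 hw.1) hA0).trans_lt hu.2
    · exact (mul_nonpos_of_nonneg_of_nonpos (cauchy_pos hL (hu.1.trans_le hw.1)).le hA0).trans_lt one_pos
  have hev : ∀ᶠ w in atTop, G w * A0 < 1 ∧ w = 1 / G w + Rk γ ρ (G w) := by
    refine Eventually.and ?_ heq
    have : Tendsto (fun w => G w * A0) atTop (𝓝 0) := by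
      simpa [G, funext (cauchy_eq μ)] using (stiel_tendsto_zero hμ).mul_const A0
    exact this.eventually (eventually_lt_nhds one_pos)
  have hid : ∀ w ∈ J, w = 1 / G w + Rk γ ρ (G w) := by
    set φ := fun w => 1 / G w + Rk γ ρ (G w) - w
    have han : AnalyticOnNhd ℝ φ J := fun w hw => by
      have hG := (cauchy_series hL hw.1).analyticAt
      have hR := (analytic_Rk h γ (y0 := G w) ⟨cauchy_pos hL hw.1, hw.2⟩).comp hG
      exact ((analyticAt_const.div hG (cauchy_pos hL hw.1).ne').add hR).sub analyticAt_id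
    obtain ⟨W, hW⟩ := eventually_atTop.1 hev
    set W' := max W (top μ) + 1
    have hW'J : W' ∈ J := ⟨by have := le_max_right W (top μ); linarith,
      (hW W' (by have := le_max_left W (top μ); linarith)).1⟩
    have hz : φ =ᶠ[𝓝 W'] 0 := by
      filter_upwards [eventually_gt_nhds (show max W (top μ) < W' by linarith)] with w hw
      have := (hW w ((le_max_left W _).trans hw.le)).2
      simp only [Pi.zero_apply, φ]
      linarith
    intro w hw
    have := han.eqOn_zero_of_preconnected_of_eventuallyEq_zero hJconn hW'J hz hw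
    simp only [Pi.zero_apply, φ] at this
    linarith
  suffices hall : ∀ w, top μ < w → G w * A0 < 1 by
    rw [← cauchy_eq]; exact ⟨⟨cauchy_pos hL hz, hall z hz⟩, hid z ⟨hz, hall z hz⟩⟩
  by_contra hall
  push Not at hall
  obtain ⟨w1, hw1, hG1⟩ := hall
  have hA0' : 0 < A0 := by
    by_contra h'
    linarith [mul_nonpos_of_nonneg_of_nonpos (cauchy_pos hL hw1).le (not_lt.1 h')]
  obtain ⟨W, hW⟩ := eventually_atTop.1 hev
  set W2 := max W w1 + 1
  have hW2 : G W2 * A0 < 1 := (hW W2 (by have := le_max_left W w1; linarith)).1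
  have hle : w1 ≤ W2 := by have := le_max_right W w1; linarith
  obtain ⟨w0, hw0, hG0⟩ : ∃ w0 ∈ Set.Icc w1 W2, G w0 = 1 / A0 := by
    refine intermediate_value_Icc' hle (fun v hv =>
      (cauchy_series hL (hw1.trans_le hv.1)).analyticAt.continuousAt.continuousWithinAt) ⟨?_, ?_⟩
    · rw [le_div_iff₀ hA0']; exact hW2.le
    · rw [div_le_iff₀ hA0']; exact hG1
  have hs0 : top μ < w0 := hw1.trans_le hw0.1
  have hGan := (cauchy_series hL hs0).analyticAt
  have hd := cauchy_deriv hL hs0
  set ℓ := hGan.hasStrictDerivAt.localInverse G (deriv G w0) w0 hd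
  have hℓ : AnalyticAt ℝ ℓ (G w0) := hGan.analyticAt_localInverse hd
  rw [hG0] at hℓ
  have hℓ0 : ℓ (G w0) = w0 := HasStrictFDerivAt.localInverse_apply_image ..
  refine no_continuation h γ hA0' (f := fun y => ℓ y - 1 / y)
    (hℓ.sub (analyticAt_const.div analyticAt_id (by positivity : (0:ℝ) < 1 / A0).ne')) ?_
  have hright : ∀ᶠ y in 𝓝 (1 / A0), G (ℓ y) = y := by
    rw [← hG0]
    exact HasStrictDerivAt.eventually_right_inverse hGan.hasStrictDerivAt hd
  have hnear : ∀ᶠ y in 𝓝 (1 / A0), top μ < ℓ y := by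
    have h1 : ℓ (1 / A0) = w0 := by rw [← hG0]; exact hℓ0
    exact hℓ.continuousAt.eventually_const_lt (by rw [h1]; exact hs0)
  filter_upwards [hright.filter_mono nhdsWithin_le_nhds, hnear.filter_mono nhdsWithin_le_nhds,
    self_mem_nhdsWithin] with y hy hy2 hy3
  have hyA : y * A0 < 1 := (lt_div_iff₀ hA0').1 hy3
  have := hid (ℓ y) ⟨hy2, by rw [hy]; exact hyA⟩
  rw [hy] at this
  linarith

/-- derivative of the kernel -/
def Rd (ρ : Measure ℝ) (y : ℝ) : ℝ := ∫ x, 1 / (1 - x * y) ^ 2 ∂ρ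

lemma integrable_pow_den (h : Carried ρ A) {y : ℝ} (hy : y ∈ dom ρ) :
    Integrable (fun x => 1 / (1 - x * y)) ρ ∧ Integrable (fun x => 1 / (1 - x * y) ^ 2) ρ ∧
      Integrable (fun x => x / (1 - x * y) ^ 2) ρ := by
  have := h.finite
  have hd : 0 < 1 - y * sSup ρ.support := sub_pos.2 hy.2
  refine ⟨?_, ?_, ?_⟩
  · refine Integrable.of_bound (Measurable.aestronglyMeasurable (by fun_prop)) (1 / (1 - y * sSup ρ.support))
      ((h.den_pos hy).mono fun x hx => ?_)
    rw [Real.norm_eq_abs, abs_of_pos (one_div_pos.2 (hd.trans_le hx.2))]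
    exact one_div_le_one_div_of_le hd hx.2
  · refine Integrable.of_bound (Measurable.aestronglyMeasurable (by fun_prop)) (1 / (1 - y * sSup ρ.support) ^ 2)
      ((h.den_pos hy).mono fun x hx => ?_)
    rw [Real.norm_eq_abs, abs_of_pos (one_div_pos.2 (pow_pos (hd.trans_le hx.2) 2))]
    exact one_div_le_one_div_of_le (pow_pos hd 2) (pow_le_pow_left₀ hd.le hx.2 2)
  · refine Integrable.of_bound (Measurable.aestronglyMeasurable (by fun_prop)) (A / (1 - y * sSup ρ.support) ^ 2)
      ((h.den_pos hy).mono fun x hx => ?_)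
    rw [Real.norm_eq_abs, abs_div, abs_of_pos (pow_pos (hd.trans_le hx.2) 2)]
    exact div_le_div₀ h.nonneg hx.1 (pow_pos hd 2) (pow_le_pow_left₀ hd.le hx.2 2)

lemma hasDerivAt_Rk (h : Carried ρ A) (γ : ℝ) {y : ℝ} (hy : y ∈ dom ρ) :
    HasDerivAt (Rk γ ρ) (Rd ρ y) y := by
  obtain ⟨i1, i2, i3⟩ := integrable_pow_den h hy
  have hK := (inner_series h hy).hasDerivAt
  rw [FormalMultilinearSeries.ofScalars_apply_eq] at hK
  have e : (fun y => γ + y * ∫ x, 1 / (1 - x * y) ∂ρ) = Rk γ ρ := (funext (Rk_eq γ)).symm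
  rw [← e]
  refine (((hasDerivAt_id y).mul hK).const_add γ).congr_deriv ?_
  have e1 : ∫ x, 1 / (1 - x * y) * (x / (1 - x * y)) ∂ρ = ∫ x, x / (1 - x * y) ^ 2 ∂ρ :=
    integral_congr_ae (.of_forall fun x => by simp only; rw [div_mul_div_comm, one_mul, sq])
  simp only [gco, pow_one, smul_eq_mul, mul_one, one_pow, id_eq, one_mul, e1]
  rw [Rd, ← integral_const_mul, ← integral_add i1 (i3.const_mul y)]
  have hd : 0 < 1 - y * sSup ρ.support := sub_pos.2 hy.2
  refine integral_congr_ae ((h.den_pos hy).mono fun x hx => ?_)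
  have h0 : (1 - x * y) ≠ 0 := (hd.trans_le hx.2).ne'
  show 1 / (1 - x * y) + y * (x / (1 - x * y) ^ 2) = 1 / (1 - x * y) ^ 2
  field_simp
  ring

/-- the second kernel of the law in terms of the derivative of the Lévy-Khintchine kernel -/
lemma stielSq_eq (h : Carried ρ A) (hμ : IsCompact μ.support)
    (heq : ∀ᶠ w in atTop, w = 1 / cauchy μ w + Rk γ ρ (cauchy μ w)) {z : ℝ} (hz : top μ < z) :
    stielSq μ z * (1 - stiel μ z ^ 2 * Rd ρ (stiel μ z)) = stiel μ z ^ 2 := by
  obtain ⟨hG, -⟩ := stiel_pos hμ hz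
  have hd := (hasDerivAt_kernels hμ hz).1
  have h1 := (hasDerivAt_Rk h γ (branch h hμ heq hz).1).comp z hd
  have h2 := (hd.fun_inv hG.ne').add h1
  have h3 : (fun t => (stiel μ t)⁻¹ + (Rk γ ρ ∘ stiel μ) t) =ᶠ[𝓝 z] id := by
    filter_upwards [eventually_gt_nhds hz] with t ht
    have := (branch h hμ heq ht).2
    rw [one_div] at this
    simp only [Function.comp, id]
    exact this.symm
  have h4 := (h2.congr_of_eventuallyEq h3.symm).unique (hasDerivAt_id z)
  field_simp at h4
  linarith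

end Vale.Agent.P166.Phase.FreeID
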