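import Vale.Agent.P166.Phase.FreeID.Criterion

/-!
The annealed pressure of a free infinitely divisible law is half the integral of the Lévy-Khintchine kernel.
-/

open MeasureTheory Filter Real Set
open scoped Topology ENNReal Interval

noncomputable section

namespace Vale.Agent.P166.Phase.FreeID

open Pattern.Signed (Carried)
open Pattern.Multi (Rk dom cauchy)

variable {μ ρ : Measure ℝ} [IsProbabilityMeasure μ] {γ A : ℝ}

/-- below the edge the transform takes the value `β` at `1/β + R(β)` -/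
lemma inverse_point (h : Carried ρ A) (hμ : IsCompact μ.support)
    (heq : ∀ᶠ w in atTop, w = 1 / cauchy μ w + Rk γ ρ (cauchy μ w)) {β : ℝ} (hβ : 0 < β)
    (hG : ENNReal.ofReal β < edgeG μ) :
    β ∈ dom ρ ∧ top μ < 1 / β + Rk γ ρ β ∧ stiel μ (1 / β + Rk γ ρ β) = β := by
  obtain ⟨z, hz, hzv⟩ := exists_crit hμ hβ hG
  obtain ⟨h1, h2⟩ := branch h hμ heq hz
  rw [hzv] at h1 h2
  exact ⟨h1, h2 ▸ hz, by rw [← h2]; exact hzv⟩

lemma abs_Rk_sub_le (h : Carried ρ A) {β y : ℝ} (hβ : β ∈ dom ρ) (hy : y ∈ Icc (0:ℝ) β) :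
    |Rk γ ρ y - γ| ≤ y / (min 1 (1 - β * sSup ρ.support)) * ρ.real univ := by
  have := h.finite
  have hm : 0 < min 1 (1 - β * sSup ρ.support) := lt_min one_pos (sub_pos.2 hβ.2)
  rw [Rk, add_sub_cancel_left, ← Real.norm_eq_abs]
  refine norm_integral_le_of_norm_le_const ?_
  filter_upwards [h.ae_top] with x hx
  have hd : min 1 (1 - β * sSup ρ.support) ≤ 1 - x * y := by
    rcases le_total x 0 with h0 | h0
    · nlinarith [min_le_left (1:ℝ) (1 - β * sSup ρ.support), mul_nonpos_of_nonpos_of_nonneg h0 hy.1]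
    · nlinarith [min_le_right (1:ℝ) (1 - β * sSup ρ.support), mul_le_mul hx.2 hy.2 hy.1 (h0.trans hx.2)]
  rw [Real.norm_eq_abs, abs_div, abs_of_nonneg hy.1, abs_of_pos (hm.trans_le hd)]
  exact div_le_div_of_nonneg_left hy.1 hm hd

lemma continuousAt_Rk (h : Carried ρ A) {y : ℝ} (hy : y ∈ dom ρ) : ContinuousAt (Rk γ ρ) y :=
  (hasDerivAt_Rk h γ hy).continuousAt

lemma dom_of_le {β y : ℝ} (hβ : β ∈ dom ρ) (hy : y ∈ Ioc (0:ℝ) β) : y ∈ dom ρ := by
  refine ⟨hy.1, ?_⟩
  rcases le_total 0 (sSup ρ.support) with h0 | h0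
  · exact (mul_le_mul_of_nonneg_right hy.2 h0).trans_lt hβ.2
  · exact (mul_nonpos_of_nonneg_of_nonpos hy.1.le h0).trans_lt one_pos

lemma continuousOn_Rk (h : Carried ρ A) (γ : ℝ) {β : ℝ} (hβ : β ∈ dom ρ) :
    ContinuousOn (Rk γ ρ) (Icc 0 β) := by
  intro y hy
  rcases hy.1.eq_or_lt with h0 | h0
  · subst h0
    rw [ContinuousWithinAt, show Rk γ ρ 0 = γ by simp [Rk], tendsto_iff_norm_sub_tendsto_zero]
    refine squeeze_zero' (.of_forall fun _ => norm_nonneg _)
      (eventually_nhdsWithin_of_forall fun t ht => abs_Rk_sub_le (γ := γ) h hβ ht) ?_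
    have h2 : Continuous fun t : ℝ => t / (min 1 (1 - β * sSup ρ.support)) * ρ.real univ := by fun_prop
    simpa using (h2.tendsto 0).mono_left (nhdsWithin_le_nhds (s := Icc 0 β))
  · exact (continuousAt_Rk h (dom_of_le hβ ⟨h0, hy.2⟩)).continuousWithinAt

/-- twice the rate at the inverse point minus the integral of the kernel -/
def defect (μ ρ : Measure ℝ) (γ y : ℝ) : ℝ :=
  2 * rate μ y (1 / y + Rk γ ρ y) - ∫ s in (0:ℝ)..y, Rk γ ρ s

lemma hasDerivAt_defect (h : Carried ρ A) (hμ : IsCompact μ.support)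
    (heq : ∀ᶠ w in atTop, w = 1 / cauchy μ w + Rk γ ρ (cauchy μ w)) {y : ℝ} (hy : 0 < y)
    (hG : ENNReal.ofReal y < edgeG μ) : HasDerivAt (defect μ ρ γ) 0 y := by
  obtain ⟨hd, ht, hv⟩ := inverse_point h hμ heq hy hG
  have hz : HasDerivAt (fun t => 1 / t + Rk γ ρ t) (-1 / y ^ 2 + Rd ρ y) y := by
    simpa [one_div] using ((hasDerivAt_id y).fun_inv hy.ne').fun_add (hasDerivAt_Rk h γ hd)
  have hL : HasDerivAt (fun t => ∫ x, log (1 / t + Rk γ ρ t - x) ∂μ)
      (stiel μ (1 / y + Rk γ ρ y) * (-1 / y ^ 2 + Rd ρ y)) y := by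
    have := (hasDerivAt_kernels hμ ht).2.comp (h := fun t => 1 / t + Rk γ ρ t) y
      hz
    exact this
  have hI : HasDerivAt (fun t => ∫ s in (0:ℝ)..t, Rk γ ρ s) (Rk γ ρ y) y := by
    refine intervalIntegral.integral_hasDerivAt_right ((continuousOn_Rk h γ hd).intervalIntegrable_of_Icc hy.le)
      ?_ (continuousAt_Rk h hd)
    refine (ContinuousOn.stronglyMeasurableAtFilter (s := dom ρ) ?_ ?_ _ hd)
    · exact isOpen_Ioi.inter (isOpen_lt (continuous_id.mul continuous_const) continuous_const)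
    · exact fun t ht' => (continuousAt_Rk h ht').continuousWithinAt
  have hmain := ((((hasDerivAt_id y).mul hz).sub_const 1).sub (hasDerivAt_log hy.ne')).sub hL |>.div_const 2 |>.const_mul 2 |>.sub hI
  refine (hmain.congr_deriv ?_).congr_of_eventuallyEq (.of_forall fun t => ?_)
  · rw [hv, id_eq]; field_simp; ring
  · simp only [defect, rate, id_eq, Pi.mul_apply, Pi.sub_apply]

lemma defect_tendsto (h : Carried ρ A) (hμ : IsCompact μ.support)
    (heq : ∀ᶠ w in atTop, w = 1 / cauchy μ w + Rk γ ρ (cauchy μ w)) {β : ℝ} (hβ : 0 < β)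
    (hG : ENNReal.ofReal β < edgeG μ) : Tendsto (defect μ ρ γ) (𝓝[>] 0) (𝓝 0) := by
  obtain ⟨hd, -, -⟩ := inverse_point h hμ heq hβ hG
  set B := bnd μ
  have hm : 0 < min 1 (1 - β * sSup ρ.support) := lt_min one_pos (sub_pos.2 hd.2)
  set C := ρ.real univ / min 1 (1 - β * sSup ρ.support) * β + |γ| + B
  have hR : ∀ y ∈ Icc (0:ℝ) β, |Rk γ ρ y| + B ≤ C := fun y hy => by
    have h1 := abs_Rk_sub_le (γ := γ) h hd hy
    have h2 := abs_sub_abs_le_abs_sub (Rk γ ρ y) γ
    have h3 : y / min 1 (1 - β * sSup ρ.support) * ρ.real univ ≤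
        ρ.real univ / min 1 (1 - β * sSup ρ.support) * β := by
      rw [div_mul_eq_mul_div, div_mul_eq_mul_div, mul_comm y]
      exact div_le_div_of_nonneg_right (mul_le_mul_of_nonneg_left hy.2 measureReal_nonneg) hm.le
    simp only [C]; linarith
  have hC : 0 < C := by
    have := hR 0 ⟨le_rfl, hβ.le⟩
    linarith [abs_nonneg (Rk γ ρ 0), bnd_pos (μ := μ)]
  have hsmall : ∀ᶠ y in 𝓝[>] (0:ℝ), |2 * rate μ y (1 / y + Rk γ ρ y)| ≤ 3 * C * y := by
    filter_upwards [Ioo_mem_nhdsGT (lt_min hβ (by positivity : (0:ℝ) < 1 / (2 * C)))] with y hy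
    obtain ⟨hy0, hy1⟩ := hy
    have hyβ : y < β := hy1.trans_le (min_le_left _ _)
    have hyC : y * C ≤ 1 / 2 := by
      have := mul_le_mul_of_nonneg_right (hy1.le.trans (min_le_right _ _)) hC.le
      rwa [show 1 / (2 * C) * C = 1 / 2 by field_simp] at this
    obtain ⟨-, ht, -⟩ := inverse_point h hμ heq hy0 (lt_trans ((ENNReal.ofReal_lt_ofReal_iff hβ).2 hyβ) hG)
    set z := 1 / y + Rk γ ρ y
    obtain ⟨-, -, il, -⟩ := integrable_kernels hμ ht
    have hRy := hR y ⟨hy0.le, hyβ.le⟩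
    have hI : |log y + ∫ x, log (z - x) ∂μ| ≤ 2 * (C * y) := by
      rw [show log y + ∫ x, log (z - x) ∂μ = ∫ x, (log y + log (z - x)) ∂μ by
        rw [integral_add (integrable_const _) il]; simp, ← Real.norm_eq_abs]
      refine (norm_integral_le_of_norm_le_const (C := 2 * (C * y)) ?_).trans (by simp)
      filter_upwards [ae_mem hμ] with x hx
      rw [Real.norm_eq_abs, ← log_mul hy0.ne' (by linarith : (0:ℝ) < z - x).ne',
        show y * (z - x) = 1 + y * (Rk γ ρ y - x) by simp only [z]; field_simp; ring]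
      set u := y * (Rk γ ρ y - x)
      have hu : |u| ≤ C * y := by
        simp only [u]; rw [abs_mul, abs_of_pos hy0, mul_comm C]
        exact mul_le_mul_of_nonneg_left ((abs_sub _ _).trans (by linarith [hx.2])) hy0.le
      obtain ⟨u1, u2⟩ := abs_le.1 (hu.trans (by linarith : C * y ≤ 1 / 2))
      have hp : 0 < 1 + u := by linarith
      have l1 := log_le_sub_one_of_pos hp
      have l2 := one_sub_inv_le_log_of_pos hp
      have l3 : -(2 * |u|) ≤ 1 - (1 + u)⁻¹ := by
        rw [show 1 - (1 + u)⁻¹ = u / (1 + u) by field_simp; ring, le_div_iff₀ hp]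
        rcases le_total 0 u with h0 | h0
        · rw [abs_of_nonneg h0]; nlinarith
        · rw [abs_of_nonpos h0]; nlinarith
      rw [abs_le]; constructor <;> linarith [le_abs_self u, abs_nonneg u]
    have e : 2 * rate μ y z = y * Rk γ ρ y - (log y + ∫ x, log (z - x) ∂μ) := by
      simp only [rate, z]; field_simp; ring
    rw [e]
    refine (abs_sub _ _).trans ?_
    rw [abs_mul, abs_of_pos hy0]
    have hb : |Rk γ ρ y| ≤ C := by linarith [bnd_pos (μ := μ)]
    have := mul_le_mul_of_nonneg_left hb hy0.le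
    linarith
  have h1 : Tendsto (fun y : ℝ => 2 * rate μ y (1 / y + Rk γ ρ y)) (𝓝[>] 0) (𝓝 0) := by
    refine squeeze_zero_norm' (a := fun y : ℝ => 3 * C * y) hsmall ?_
    simpa using ((by fun_prop : Continuous fun y : ℝ => 3 * C * y).tendsto 0).mono_left
      (nhdsWithin_le_nhds (s := Ioi (0:ℝ)))
  have h2 : Tendsto (fun y : ℝ => ∫ s in (0:ℝ)..y, Rk γ ρ s) (𝓝[>] 0) (𝓝 0) := by
    have hc := intervalIntegral.continuousOn_primitive_interval'
      ((continuousOn_Rk h γ hd).intervalIntegrable_of_Icc (μ := volume) hβ.le) (left_mem_uIcc)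
    have := hc 0 left_mem_uIcc
    rw [ContinuousWithinAt, intervalIntegral.integral_same] at this
    exact this.mono_left (nhdsWithin_le_of_mem (mem_of_superset (Ioo_mem_nhdsGT hβ) fun t ht => by
      rw [uIcc_of_le hβ.le]; exact ⟨ht.1.le, ht.2.le⟩))
  have h3 := h1.sub h2
  rw [sub_zero] at h3
  exact h3

/-- the annealed pressure below the edge -/
theorem annealed_formula (h : Carried ρ A) (hμ : IsCompact μ.support)
    (heq : ∀ᶠ w in atTop, w = 1 / cauchy μ w + Rk γ ρ (cauchy μ w)) {β : ℝ} (hβ : 0 < β)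
    (hG : ENNReal.ofReal β < edgeG μ) :
    annealed μ β = (∫ s in (0:ℝ)..β, Rk γ ρ s) / 2 := by
  obtain ⟨-, ht, hv⟩ := inverse_point h hμ heq hβ hG
  rw [annealed_eq hμ ht hv]
  suffices defect μ ρ γ β = 0 by simp only [defect] at this; linarith
  have hlt : ∀ y ∈ Ioc (0:ℝ) β, ENNReal.ofReal y < edgeG μ := fun y hy =>
    (ENNReal.ofReal_le_ofReal hy.2).trans_lt hG
  have hconst : ∀ y ∈ Ioo (0:ℝ) β, defect μ ρ γ β = defect μ ρ γ y := fun y hy => by
    have := constant_of_has_deriv_right_zero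
      (fun t (ht : t ∈ Icc y β) => (hasDerivAt_defect h hμ heq (hy.1.trans_le ht.1)
        (hlt t ⟨hy.1.trans_le ht.1, ht.2⟩)).continuousAt.continuousWithinAt)
      (fun t ht => (hasDerivAt_defect h hμ heq (hy.1.trans_le ht.1)
        (hlt t ⟨hy.1.trans_le ht.1, ht.2.le⟩)).hasDerivWithinAt)
    exact this β (right_mem_Icc.2 hy.2.le)
  exact tendsto_nhds_unique_of_eventuallyEq tendsto_const_nhds (defect_tendsto h hμ heq hβ hG)
    (mem_of_superset (Ioo_mem_nhdsGT hβ) fun y hy => hconst y hy)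

lemma edge_pos (hμ : IsCompact μ.support) {g : ℝ} (hG : edgeG μ = ENNReal.ofReal g) : 0 < g := by
  have hz : top μ < top μ + 1 := lt_add_one _
  obtain ⟨i1, -, -, -⟩ := integrable_kernels hμ hz
  by_contra hg
  rw [ENNReal.ofReal_eq_zero.2 (not_lt.1 hg)] at hG
  have h1 : ∫⁻ x, ENNReal.ofReal (top μ + 1 - x)⁻¹ ∂μ ≤ edgeG μ :=
    lintegral_mono_ae ((ae_mem hμ).mono fun x hx => by
      rw [ENNReal.ofReal_inv_of_pos (by linarith)]
      exact ENNReal.inv_le_inv.2 (ENNReal.ofReal_le_ofReal (by linarith)))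
  rw [hG, ← ofReal_integral_eq_lintegral_ofReal i1 ((ae_mem hμ).mono fun x hx => inv_nonneg.2 (by linarith))] at h1
  exact absurd h1 (not_le.2 (ENNReal.ofReal_pos.2 (stiel_pos hμ hz).1))

/-- the kernel is integrable up to the edge -/
lemma integrable_edge (h : Carried ρ A) (hμ : IsCompact μ.support)
    (heq : ∀ᶠ w in atTop, w = 1 / cauchy μ w + Rk γ ρ (cauchy μ w)) {g : ℝ} (hG : edgeG μ = ENNReal.ofReal g) :
    IntervalIntegrable (Rk γ ρ) volume 0 g := by
  have hg := edge_pos hμ hG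
  have hlt : ∀ y ∈ Ioo (0:ℝ) g, ENNReal.ofReal y < edgeG μ := fun y hy =>
    hG ▸ (ENNReal.ofReal_lt_ofReal_iff hg).2 hy.2
  have hh : g / 2 ∈ Ioo (0:ℝ) g := ⟨by linarith, by linarith⟩
  obtain ⟨hd, ht, hv⟩ := inverse_point h hμ heq hh.1 (hlt _ hh)
  obtain ⟨K, hK⟩ := isCompact_Icc.exists_bound_of_continuousOn (continuousOn_Rk h γ hd)
  set C := max K (|top μ| + |1 / (g / 2) + Rk γ ρ (g / 2)| + 2 / g)
  have hb : ∀ y ∈ Ioo (0:ℝ) g, |Rk γ ρ y| ≤ C := fun y hy => by
    rcases le_total y (g / 2) with h0 | h0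
    · exact (hK y ⟨hy.1.le, h0⟩).trans (le_max_left _ _)
    obtain ⟨-, ht', hv'⟩ := inverse_point h hμ heq hy.1 (hlt y hy)
    have h2 : 1 / y + Rk γ ρ y ≤ 1 / (g / 2) + Rk γ ρ (g / 2) := by
      by_contra hc
      have := stiel_strictAnti hμ ht ht' (not_le.1 hc)
      linarith
    have h3 : 1 / y ≤ 2 / g := by rw [← one_div_div g 2]; exact one_div_le_one_div_of_le hh.1 h0
    refine le_trans ?_ (le_max_right _ _)
    have : 0 < 1 / y := one_div_pos.2 hy.1
    have : 0 ≤ 2 / g := by positivity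
    rw [abs_le]
    constructor <;> linarith [neg_abs_le (top μ), le_abs_self (1 / (g / 2) + Rk γ ρ (g / 2)),
      abs_nonneg (1 / (g / 2) + Rk γ ρ (g / 2)), abs_nonneg (top μ)]
  have hc : ContinuousOn (Rk γ ρ) (Ioo (0:ℝ) g) := fun y hy =>
    (continuousAt_Rk h (inverse_point h hμ heq hy.1 (hlt y hy)).1).continuousWithinAt
  rw [intervalIntegrable_iff_integrableOn_Ioo_of_le hg.le]
  exact IntegrableOn.of_bound measure_Ioo_lt_top (hc.aestronglyMeasurable measurableSet_Ioo) C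
    ((ae_restrict_mem measurableSet_Ioo).mono fun y hy => hb y hy)

/-- the annealed pressure at the edge -/
theorem annealed_formula_edge (h : Carried ρ A) (hμ : IsCompact μ.support)
    (heq : ∀ᶠ w in atTop, w = 1 / cauchy μ w + Rk γ ρ (cauchy μ w)) {g : ℝ} (hG : edgeG μ = ENNReal.ofReal g) :
    annealed μ g = (∫ s in (0:ℝ)..g, Rk γ ρ s) / 2 := by
  have hg := edge_pos hμ hG
  have : Nonempty (Ioi (top μ)) := ⟨⟨top μ + 1, mem_Ioi.2 (lt_add_one (top μ))⟩⟩
  have hh : 0 < g / 2 := by linarith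
  obtain ⟨-, ht, -⟩ := inverse_point h hμ heq hh (hG ▸ (ENNReal.ofReal_lt_ofReal_iff hg).2 (by linarith))
  set I := fun β => (∫ s in (0:ℝ)..β, Rk γ ρ s) / 2
  set Z := 1 / (g / 2) + Rk γ ρ (g / 2)
  have hsq : ∀ β ∈ Ioo (g / 2) g,
      I β + ((g - β) * top μ - (log g - log β)) / 2 ≤ annealed μ g ∧
      annealed μ g ≤ I β + ((g - β) * Z - (log g - log β)) / 2 := by
    intro β hb
    have hβ : 0 < β := hh.trans hb.1
    have hlt : ENNReal.ofReal β < edgeG μ := hG ▸ (ENNReal.ofReal_lt_ofReal_iff hg).2 hb.2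
    obtain ⟨-, ht', hv'⟩ := inverse_point h hμ heq hβ hlt
    have e : ∀ z, rate μ g z = rate μ β z + ((g - β) * z - (log g - log β)) / 2 := fun z => by
      unfold rate; ring
    have ea : annealed μ β = I β := annealed_formula h hμ heq hβ hlt
    have hz0 := annealed_eq hμ ht' hv'
    have hlow : ∀ z : Ioi (top μ), I β + ((g - β) * top μ - (log g - log β)) / 2 ≤ rate μ g z := fun z => by
      have h1 := rate_tangent hμ (θ := β) z.2 ht'
      rw [hv', sub_self, zero_mul, zero_div, add_zero, ← hz0, ea] at h1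
      rw [e z]
      have := mul_le_mul_of_nonneg_left (show top μ ≤ (z:ℝ) from le_of_lt z.2) (sub_nonneg.2 hb.2.le)
      linarith
    refine ⟨le_ciInf hlow, ?_⟩
    have hbd : BddBelow (Set.range fun z : Ioi (top μ) => rate μ g z) :=
      ⟨_, Set.forall_mem_range.2 hlow⟩
    have h2 : annealed μ g ≤ rate μ g (1 / β + Rk γ ρ β) := ciInf_le hbd ⟨_, ht'⟩
    have h3 : 1 / β + Rk γ ρ β ≤ Z := by
      by_contra hc
      have := stiel_strictAnti hμ ht ht' (not_le.1 hc)
      rw [hv', (inverse_point h hμ heq hh (hG ▸ (ENNReal.ofReal_lt_ofReal_iff hg).2 (by linarith))).2.2] at this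
      linarith [hb.1]
    have := mul_le_mul_of_nonneg_left h3 (sub_nonneg.2 hb.2.le)
    rw [e, ← hz0, ea] at h2
    linarith
  have hI : Tendsto I (𝓝[<] g) (𝓝 (I g)) := by
    have hc := intervalIntegral.continuousOn_primitive_interval' (integrable_edge h hμ heq hG) left_mem_uIcc
    have := hc g right_mem_uIcc
    refine (Tendsto.div_const (this.mono_left (nhdsWithin_le_of_mem (mem_of_superset (Ioo_mem_nhdsLT hg) fun t ht => ?_))) 2)
    rw [uIcc_of_le hg.le]; exact ⟨ht.1.le, ht.2.le⟩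
  have hlim : ∀ c : ℝ, Tendsto (fun β => I β + ((g - β) * c - (log g - log β)) / 2) (𝓝[<] g) (𝓝 (I g)) := fun c => by
    have h1 : ContinuousAt (fun β => ((g - β) * c - (log g - log β)) / 2) g := by fun_prop (disch := exact hg.ne')
    simpa using hI.add (h1.tendsto.mono_left (nhdsWithin_le_nhds (s := Iio g)))
  have hev : ∀ᶠ β in 𝓝[<] g, β ∈ Ioo (g / 2) g := Ioo_mem_nhdsLT (by linarith)
  exact le_antisymm (ge_of_tendsto (hlim Z) (hev.mono fun β hb => (hsq β hb).2))
    (le_of_tendsto (hlim (top μ)) (hev.mono fun β hb => (hsq β hb).1))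

end Vale.Agent.P166.Phase.FreeID
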