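import Vale.Agent.P166.Phase.FreeID.Formula
import Vale.Agent.P166.Phase.Threshold
import Vale.Agent.P166.Pattern.Signed.FreeID

/-!
The annealed phase of a free infinitely divisible law.
-/

open MeasureTheory Filter
open scoped Topology ENNReal

noncomputable section

namespace Vale.Agent.P166.Phase.FreeID

open Pattern.Signed (Carried)
open Pattern.Multi (Rk dom cauchy)

variable {μ ρ : Measure ℝ} [IsProbabilityMeasure μ] {γ A : ℝ} {lam : ∀ N : ℕ, Fin N → ℝ}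
  {ν : ∀ N : ℕ, Measure (Mat N)}

/-- the limit below the edge -/
theorem phase (h : Carried ρ A) (hμ : IsCompact μ.support)
    (heq : ∀ᶠ w in atTop, w = 1 / cauchy μ w + Rk γ ρ (cauchy μ w)) (hl : Admissible μ lam)
    (hν : ∀ N, IsHaarOrthogonal (ν N)) {β : ℝ} (hβ : 0 < β) (hG : ENNReal.ofReal β < edgeG μ)
    (hneg : ∀ᵐ x ∂ρ, -1 ≤ β * x) {ε : ℝ} (hε : 0 < ε) :
    Tendsto (fun N : ℕ => (ν N).real
      {U | ε ≤ |pressure β (lam N) U - (∫ s in (0:ℝ)..β, Rk γ ρ s) / 2|}) atTop (𝓝 0) := by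
  rw [← annealed_formula h hμ heq hβ hG]
  exact annealed_phase hμ hl hν hβ hG (crit h hμ heq hβ hG hneg) hε

/-- the phase ends exactly at the edge -/
theorem phase_edge (h : Carried ρ A) (hμ : IsCompact μ.support)
    (heq : ∀ᶠ w in atTop, w = 1 / cauchy μ w + Rk γ ρ (cauchy μ w)) (hl : Admissible μ lam)
    (hν : ∀ N, IsHaarOrthogonal (ν N)) {g : ℝ} (hG : edgeG μ = ENNReal.ofReal g)
    (hneg : ∀ᵐ x ∂ρ, -1 ≤ g * x) {β : ℝ} (hβ : 0 < β) :
    (β ≤ g → ∀ ε : ℝ, 0 < ε → Tendsto (fun N : ℕ => (ν N).real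
      {U | ε ≤ |pressure β (lam N) U - (∫ s in (0:ℝ)..β, Rk γ ρ s) / 2|}) atTop (𝓝 0)) ∧
    ((∀ ε : ℝ, 0 < ε → Tendsto (fun N : ℕ => (ν N).real {U | ε ≤ |pressure β (lam N) U - annealed μ β|})
      atTop (𝓝 0)) ↔ β ≤ g) := by
  have ht := threshold hμ hl hν hG (crit_edge h hμ heq hG hneg) hβ
  refine ⟨fun hle ε hε => ?_, ht⟩
  rcases hle.lt_or_eq with hlt | rfl
  · rw [← annealed_formula h hμ heq hβ (hG ▸ (ENNReal.ofReal_lt_ofReal_iff (hβ.trans hlt)).2 hlt)]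
    exact ht.2 hlt.le ε hε
  · rw [← annealed_formula_edge h hμ heq hG]
    exact ht.2 le_rfl ε hε

end Vale.Agent.P166.Phase.FreeID
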